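import Vale.Agent.N153.Main

/-!
Uniform odd heights (integer Lipschitz functions) on the triangular lattice with two-arc boundary
values: the scaling limits of the height field and of the interface in bounded simply connected
domains, which need not be Jordan domains.
-/

namespace Vale.Agent.Results.P153.A0AllDomains

open Vale.Agent.N153

/-- Every bounded simply connected domain marked at two prime ends has lattice approximations in
the sense of Carathéodory; along all of them the centred heights converge in law in `𝓓'(D)` and in
`H^{-r}(D)`, `r > 1`, to `√(8/π) Φ_D`, and the heights converge to `u + √(8/π) Φ_D`. Whenever the
domain has a boundary curve (a locally connected boundary), lattice polygons converging uniformly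
modulo reparametrization to the marked boundary curve exist, they converge in the sense of
Carathéodory, and along all of them the interface converges in law to chordal `SLE_4`. A boundary
which is a curve is locally connected. -/
theorem result : Domains ∧ DistLimit ∧ SobLimit ∧ CurveLimit ∧
    ∀ (D : Set ℂ) (β : ℝ → ℂ), ContinuousOn β (Set.Icc 0 1) → frontier D = β '' Set.Icc 0 1 →
      LocallyConnectedSpace (frontier D) :=
  ⟨everything.1, everything.2.1, everything.2.2.1, everything.2.2.2, lc_of_curve⟩

end Vale.Agent.Results.P153.A0AllDomains
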