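import Vale.Agent.N153J.Main

/-!
Uniform odd heights (integer Lipschitz functions) on the triangular lattice with two-arc boundary
values: the joint scaling limit of the interface and the height field.
-/

namespace Vale.Agent.Results.P153.A0Coupling

open MeasureTheory Filter Topology Set TopologicalSpace
open Vale.Agent.P153.H212 (Heights arcs law fld IsInterface IsSLE)
open Vale.Agent.P153E (Approximates)
open Vale.Agent.N153 (Param)
open Vale.Agent.N153J (side IsCond)

/-- There is a chordal `SLE_4` trace `γ` in the upper half-plane such that for every domain `D` with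
a marked boundary curve `β`, given by the conformal map `ψ`, there are the curve `Γ = ψ ∘ γ` from
`a` to `b` and laws `Q ω` on `𝓓'(D)` such that:

(1) almost surely `Γ` has zero area and cuts `D` into the two disjoint open sets `L_+`, `L_-`, on
the sides of `A_+`, `A_-`, and `Q ω` is the (only) law of the Gaussian field with the mean `±1` on
`L_±` and the covariance `(8/π) (-Δ)⁻¹` of `D ∖ Γ`;

(2) for all lattice domains whose marked boundary curves converge to `β`, the pair of the interface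
`c n h` and the field `h_δ`, as a distribution `X n h`, converges in law to the pair of `Γ` and the
field which has the law `Q ω` given `γ`: the expectations of all bounded continuous functions of the
curve and the distribution which are invariant under increasing reparametrization of the curve
converge. -/
theorem result :
    ∃ (Ω : Type) (_ : MeasurableSpace Ω) (P : Measure Ω) (γ : Ω → ℝ → ℂ),
    IsProbabilityMeasure P ∧ IsSLE 4 P γ ∧
    ∀ (D : Opens ℂ) (ψ : ℂ → ℂ) (s : ℝ) (β : ℝ → ℂ), Param D ψ s β →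
    ∀ [MeasurableSpace (Distribution D ℝ ⊤)] [BorelSpace (Distribution D ℝ ⊤)],
    ∃ (Γ : Ω → C(unitInterval, ℂ)) (Q : Ω → Measure (Distribution D ℝ ⊤)),
      (∀ᵐ ω ∂P, Γ ω 1 = β (1 / 2) ∧
        (∀ t : unitInterval, (t : ℝ) < 1 → Γ ω t = ψ (γ ω (t / (1 - t)))) ∧
        volume (range (Γ ω)) = 0 ∧ IsOpen (ψ '' side (γ ω) s) ∧ IsOpen (ψ '' side (γ ω) (-s)) ∧
        Disjoint (ψ '' side (γ ω) s) (ψ '' side (γ ω) (-s)) ∧
        ψ '' side (γ ω) s ∪ ψ '' side (γ ω) (-s) = (D : Set ℂ) \ range (Γ ω) ∧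
        IsCond (ψ '' side (γ ω) s) (ψ '' side (γ ω) (-s)) (Q ω) ∧
        ∀ Q', IsCond (ψ '' side (γ ω) s) (ψ '' side (γ ω) (-s)) Q' → Q' = Q ω) ∧
      (∀ Ψ : C(unitInterval, ℂ) × Distribution D ℝ ⊤ → ℝ, Continuous Ψ → (∃ M, ∀ q, |Ψ q| ≤ M) →
        AEMeasurable (fun ω => ∫ T, Ψ (Γ ω, T) ∂Q ω) P) ∧
      ∀ (δ : ℕ → ℝ) (N k : ℕ → ℕ) (p : ∀ n, ZMod (N n) → ℤ × ℤ)
        (S : ℕ → Finset (Finset (ℤ × ℤ))), Approximates β δ N k p S →
        ∃ X : ℕ → (ℤ × ℤ → ℤ) → Distribution D ℝ ⊤, (∀ n h f, X n h f = fld (S n) (δ n) f h) ∧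
          ∀ c : ∀ _ : ℕ, (ℤ × ℤ → ℤ) → C(unitInterval, ℂ),
            (∀ n, ∀ h ∈ Heights (p n) (S n) (arcs (k n)),
              IsInterface (p n) (k n) (S n) (δ n) h (c n h)) →
            ∀ Ψ : C(unitInterval, ℂ) × Distribution D ℝ ⊤ → ℝ, Continuous Ψ →
              (∃ M, ∀ q, |Ψ q| ≤ M) →
              (∀ (x : C(unitInterval, ℂ)) (T : Distribution D ℝ ⊤)
                (σ : C(unitInterval, unitInterval)), StrictMono σ → Function.Surjective σ →
                  Ψ (x.comp σ, T) = Ψ (x, T)) →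
              Tendsto (fun n => ∫ h, Ψ (c n h, X n h) ∂law (p n) (S n) (arcs (k n))) atTop
                (𝓝 (∫ ω, ∫ T, Ψ (Γ ω, T) ∂Q ω ∂P)) := by
  obtain ⟨Ω, mΩ, P, γ, hP, hγ, H⟩ := N153J.joint
  refine ⟨Ω, mΩ, P, γ, hP, hγ, fun D ψ s β hβ _ _ => ?_⟩
  obtain ⟨⟨G, hG⟩, H⟩ := H D ψ s β hβ
  obtain ⟨Φ, u, U, Γ, Q, -, -, -, -, -, -, h1, h2, -, h3⟩ := H G hG
  refine ⟨Γ, Q, h1, h2, fun δ N k p S hS => ?_⟩
  obtain ⟨-, X, M, hX, -, -, -, h4⟩ := h3 δ N k p S hS
  exact ⟨X, hX, h4⟩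

end Vale.Agent.Results.P153.A0Coupling
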